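import Vale.Agent.P354ZZ.TopC
import Vale.Agent.P354YA.Inst
import Vale.Agent.P354XV.Main
import Vale.Agent.P354XD.Sm
import Vale.Agent.P354YA.Exz
import Vale.Agent.P354Z.Glue
import Vale.Agent.P354YC.UnqP
import Vale.Agent.P354YK.Ft
import Vale.Agent.P354YR.Nfo
import Vale.Agent.P354YI.Ini
import Vale.Agent.P354YQ.Out
import Vale.Agent.P354FW.Top
import Vale.Agent.P354YA.Back
import Vale.Agent.P354HI.Main
import Vale.Agent.P354LC.Key
import Vale.Agent.P354XA.Met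
import Vale.Agent.P354CQ.Geo
import Vale.Agent.P354NU.Zfin
import Vale.Agent.P354IF.Lbd
import Vale.Agent.P354RI.Sgn
import Vale.Agent.P354RN.Wnd
import Vale.Agent.P354YI.Wne
import Vale.Agent.P354HF.Layh
import Vale.Agent.P354YA.Tri
import Vale.Agent.P354NC.Main
import Vale.Agent.P354Z.Etb
import Vale.Agent.P354YK.Hyb
import Vale.Agent.P354YS.PhiA
import Vale.Agent.P354FL.Fam

/-!
The whole proof.
-/

namespace Vale.Agent.P354ZZ

open Vale.Agent

theorem eta1 : P354LC.ETA1 := fun f h =>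
  let ⟨L, l, m, k⟩ := P354Z.eta_ok P354CQ.geo f h
  ⟨L, l, m, fun Rs => (k Rs).imp fun _ t => ⟨t.1, fun v q Rb F e0 a b c _ d => t.2 v q Rb F e0 a b c d⟩⟩

theorem sgn1 : P354LC.SGN1 := fun _ h Rs => (P354RI.sgn0 h Rs).imp fun _ t =>
  ⟨t.1, fun v q Rb F e0 E a b c d => t.2 v q Rb F e0 E a b c fun y hy e =>
    d y hy ⟨by rw [e]; norm_num, by rw [e]; norm_num⟩⟩

theorem chart : P354Z.CHART P354MG.Lk :=
  P354LC.chart_of (P354LC.key (P354XA.met P354CQ.geo) P354CQ.geo) P354NU.zon P354IF.lbd P354CQ.geo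
    eta1 sgn1 P354RN.wnd P354YI.wne P354HF.layh P354YA.tri
    (P354YK.hyb P354YS.the P354NC.nc) P354FL.ftwo_ok

theorem ext : P354XE.EXT :=
  P354YA.ext_sch P354YR.nis_ok P354YR.nkg_ok P354YR.nw_ok P354YI.ini (P354XV.cont1 P354YC.unq)
    P354XD.smv P354XD.smd
    (P354Z.main_of (P354YA.exz P354YR.nkm_ok) P354YK.mono chart P354FW.core_ok
      (P354YA.back_of P354HI.high) P354YQ.out_ok)

/-- The full theorem. -/
theorem top : P354XS.Q1' := trackC ext

end Vale.Agent.P354ZZ
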