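import Vale.Agent.P354SF.Fin
import Vale.Agent.P354YV.Trk
import Vale.Agent.P354XB.Slab
import Vale.Agent.P354XP.Loc
import Vale.Agent.P354YX.Main
import Vale.Agent.P354XM.Arg2
import Vale.Agent.P354SN.Ru
import Vale.Agent.P354TS.Trans
import Vale.Agent.P354SN.Str
import Vale.Agent.P354XM.Sw
import Vale.Agent.P354YC.Csl
import Vale.Agent.P354XM.Mirt
import Vale.Agent.P354SM.Same
import Vale.Agent.P354DT.Sj
import Vale.Agent.P354YV.Kd3
import Vale.Agent.P354LA.Spine
import Vale.Agent.P354LF.Loca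
import Vale.Agent.P354SL.Indy
import Vale.Agent.P354GL.Glue
import Vale.Agent.P354DA.Main
import Vale.Agent.P354UR.Emb
import Vale.Agent.P354XE.Fin
import Vale.Agent.P354SL.Slc
import Vale.Agent.P354CH.Locs
import Vale.Agent.P354PW.Path
import Vale.Agent.P354PW.Path0
import Vale.Agent.P354PW.Pth
import Vale.Agent.P354YM.G4
import Vale.Agent.P354YJ.Jp
import Vale.Agent.P354XP.Ksg
import Vale.Agent.P354DO.Main
import Vale.Agent.P354LN.Lens
import Vale.Agent.P354YJ.Cls
import Vale.Agent.P354DT.Dlip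
import Vale.Agent.P354YV.Int
import Vale.Agent.P354PR.Ubd
import Vale.Agent.P354XY.Hul
import Vale.Agent.P354YV.Kc
import Vale.Agent.P354KX.Kb
import Vale.Agent.P354KX.Hs
import Vale.Agent.P354DT.Clf
import Vale.Agent.P354YM.Kl
import Vale.Agent.P354SA.Top
import Vale.Agent.P354YM.QFin

/-!
The conditional track: Q1 from EXT.
-/

namespace Vale.Agent.P354ZZ

open Vale.Agent

theorem kck : P354YM.KCK :=
  P354YV.kck_of P354SA.s1_ok (P354XM.mirt (P354YV.trk P354XB.slab P354XP.ksg P354XP.loc P354YX.topk))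
    P354XM.mxx P354DT.sj P354DT.clf P354YV.kd2 P354SL.indy (P354SL.slc P354DA.dat) P354LN.lens
    (P354KX.hs P354SM.same_ok P354XM.mxx P354XY.hul)
    (P354KX.kb P354SM.same_ok P354GL.glue P354SL.indy P354YM.kl)

theorem trackC (e : P354XE.EXT) : P354XS.Q1' :=
  have cls := P354YJ.cls
  P354YM.q1_of P354YJ.jp P354XE.gt_ok P354SN.ru2 P354SN.str P354DT.dlip cls P354YJ.mono
    P354LN.lens
    (P354TS.trans (P354UR.emb_of P354YC.csl) P354PR.ubd P354DO.dod P354PW.pth
      (P354LF.loca cls P354XM.arg P354PW.path0 (P354LA.spine P354XM.arg P354PW.path)))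
    P354XM.switch P354CH.locs P354DA.dat (P354SL.slc P354DA.dat) P354YV.int kck
    (P354TS.ext2 e P354YJ.midk)

/-- The conditional theorem. -/
theorem cond : P354SF.EXT → P354Z.Q1 := P354SF.cond_fin trackC

end Vale.Agent.P354ZZ
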